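import Mathlib
import Vale.Agent.Lib.P338.Model

namespace Vale.Agent.Results.P338.OneTape

open Vale.Agent.Lib.P338

/-! ### Generalities on runs -/

section General

variable {k : ℕ} (M : Machine k)

lemma run_add (s t : ℕ) (c : Cfg M) : run M (s + t) c = (run M s c).bind (run M t) := by
  induction s generalizing c with
  | zero => simp [run]
  | succ s ih =>
    rw [Nat.succ_add]
    simp only [run]
    cases h : step M c with
    | none => simp
    | some c' => simp [ih]

lemma halt_unique {c c₁ c₂ : Cfg M} {t₁ t₂ : ℕ} (h₁ : run M t₁ c = some c₁)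
    (h₁' : step M c₁ = none) (h₂ : run M t₂ c = some c₂) : t₂ ≤ t₁ := by
  by_contra hlt
  rw [not_le] at hlt
  obtain ⟨d, rfl⟩ := Nat.exists_eq_add_of_lt hlt
  rw [add_assoc, run_add, h₁] at h₂
  simp only [Option.bind_some] at h₂
  have h3 : run M (d + 1) c₁ = none := by
    show (step M c₁).bind (run M d) = none
    rw [h₁']
    rfl
  rw [h3] at h₂
  cases h₂

lemma haltTime_eq {n : ℕ} {x y : Fin n → Bool} {t : ℕ} {c : Cfg M} (h : HaltsWith M x y t c) :
    haltTime M x y = t := by
  unfold haltTime
  apply le_antisymm
  · exact Nat.sInf_le (show t ∈ {t : ℕ | ∃ c : Cfg M, HaltsWith M x y t c} from ⟨c, h⟩)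
  · apply le_csInf (show Set.Nonempty {t : ℕ | ∃ c : Cfg M, HaltsWith M x y t c} from ⟨t, c, h⟩)
    rintro t' ⟨c', h'⟩
    exact halt_unique M h'.1 h'.2 h.1

lemma haltTime_le_worstTime {n : ℕ} (x y : Fin n → Bool) : haltTime M x y ≤ worstTime M n := by
  unfold worstTime
  exact Finset.le_sup (f := fun p : (Fin n → Bool) × (Fin n → Bool) => haltTime M p.1 p.2)
    (Finset.mem_univ (x, y))

end General

/-! ### Binary strings -/

lemma ofBits_eq_sum {n : ℕ} (f : Fin n → Bool) :
    Nat.ofBits f = ∑ i : Fin n, (f i).toNat * 2 ^ (i : ℕ) := by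
  induction n with
  | zero => simp
  | succ n ih =>
    rw [Nat.ofBits_succ, ih, Fin.sum_univ_succ, Finset.mul_sum]
    simp only [Function.comp, Fin.val_zero, pow_zero, mul_one, Fin.val_succ]
    rw [add_comm]
    congr 1
    apply Finset.sum_congr rfl
    intro i _
    ring

lemma val_eq_ofBits {n : ℕ} (x : Fin n → Bool) : val x = Nat.ofBits (fun i => x i.rev) := by
  rw [ofBits_eq_sum, val]
  rw [← Equiv.sum_comp Fin.revPerm]
  apply Finset.sum_congr rfl
  intro i _
  simp only [Fin.revPerm_apply, Fin.val_rev]
  congr 2
  omega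

lemma testBit_val {n : ℕ} (x : Fin n → Bool) (j : Fin n) :
    (val x).testBit (n - 1 - (j : ℕ)) = x j := by
  rw [val_eq_ofBits, Nat.testBit_ofBits_lt _ _ (by omega)]
  congr 1
  apply Fin.ext
  simp only [Fin.val_rev]
  omega

/-! ### The right-hand view of a one-tape computation -/

section Crossing

variable (M : Machine 1)

/-- What is visible to the right of the boundary `b` (between cells `b - 1` and `b`): the state
and the offset of the head if the head is on a cell `≥ b`, and the contents of the cells `≥ b`. -/
def view (b : ℕ) (c : Cfg M) : Option (M.Q × ℕ) × (ℕ → M.Γ) :=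
  (if b ≤ c.head 0 then some (c.q, c.head 0 - b) else none, fun j => c.tape 0 (b + j))

/-- One step of the machine seen from the right of the boundary, the head being at offset `j`. -/
def stepR (q : M.Q) (j : ℕ) (τ : ℕ → M.Γ) : Option (Option (M.Q × ℕ) × (ℕ → M.Γ)) :=
  (M.δ q (fun _ => τ j)).map fun r =>
    (match (r.2 0).2 with
      | Move.left => if j = 0 then none else some (r.1, j - 1)
      | Move.stay => some (r.1, j)
      | Move.right => some (r.1, j + 1),
     Function.update τ j (r.2 0).1)

/-- The right-hand side simulated on its own, given the list of the states in which the head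
enters from the left. -/
def runR : ℕ → List M.Q → Option (M.Q × ℕ) × (ℕ → M.Γ) → Option (M.Q × ℕ) × (ℕ → M.Γ)
  | 0, _, v => v
  | f + 1, l, (some (q, j), τ) =>
    match stepR M q j τ with
    | none => (some (q, j), τ)
    | some v' => runR f l v'
  | _ + 1, [], (none, τ) => (none, τ)
  | f + 1, q :: l, (none, τ) => runR f l (some (q, 0), τ)

/-- The list of the states in which the head crosses the boundary `b` from left to right during
the first `t` steps from `c`. -/
def enters (b : ℕ) : ℕ → Cfg M → List M.Q
  | 0, _ => []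
  | t + 1, c =>
    match step M c with
    | none => []
    | some c' => (if c.head 0 < b ∧ b ≤ c'.head 0 then [c'.q] else []) ++ enters b t c'

lemma read_eq (c : Cfg M) :
    (fun i : Fin 1 => c.tape i (c.head i)) = fun _ => c.tape 0 (c.head 0) := by
  funext i
  rw [Subsingleton.elim i 0]

lemma stepR_none {b : ℕ} {c : Cfg M} (hb : b ≤ c.head 0) (h : step M c = none) :
    stepR M c.q (c.head 0 - b) (view M b c).2 = none := by
  unfold step at h
  rw [read_eq] at h
  unfold stepR view
  simp only [Option.map_eq_none_iff] at h ⊢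
  rw [Nat.add_sub_cancel' hb]
  exact h

lemma stepR_some {b : ℕ} (hb1 : 1 ≤ b) {c c' : Cfg M} (hb : b ≤ c.head 0)
    (h : step M c = some c') :
    stepR M c.q (c.head 0 - b) (view M b c).2 = some (view M b c') := by
  unfold step at h
  rw [read_eq] at h
  unfold stepR
  simp only [view]
  rw [Nat.add_sub_cancel' hb]
  cases hδ : M.δ c.q (fun _ => c.tape 0 (c.head 0)) with
  | none => rw [hδ] at h; cases h
  | some r =>
    rw [hδ] at h
    simp only [Option.map_some, Option.some.injEq] at h ⊢
    subst h
    simp only
    apply Prod.ext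
    · simp only
      cases hm : (r.2 0).2 with
      | left =>
        simp only [Move.apply]
        by_cases hj : c.head 0 - b = 0
        · have : ¬ b ≤ c.head 0 - 1 := by omega
          simp [hj, this]
        · have : b ≤ c.head 0 - 1 := by omega
          simp only [hj, this, if_true, if_false]
          congr 2
          omega
      | stay =>
        simp [Move.apply, hb]
      | right =>
        have : b ≤ c.head 0 + 1 := by omega
        simp only [Move.apply, this, if_true]
        congr 2
        omega
    · simp only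
      funext j
      by_cases hj : j = c.head 0 - b
      · subst hj
        rw [Nat.add_sub_cancel' hb]
        simp
      · have : b + j ≠ c.head 0 := by omega
        simp [Function.update_of_ne, hj, this]

lemma left_step {b : ℕ} {c c' : Cfg M} (hb : c.head 0 < b) (h : step M c = some c') :
    (view M b c').2 = (view M b c).2 ∧ (b ≤ c'.head 0 → c'.head 0 = b) := by
  unfold step at h
  cases hδ : M.δ c.q (fun i => c.tape i (c.head i)) with
  | none => rw [hδ] at h; cases h
  | some r =>
    rw [hδ] at h
    simp only [Option.map_some, Option.some.injEq] at h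
    subst h
    constructor
    · simp only [view]
      funext j
      have : b + j ≠ c.head 0 := by omega
      simp [Function.update_of_ne, this]
    · simp only
      cases hm : (r.2 0).2 with
      | left => simp only [Move.apply]; omega
      | stay => simp only [Move.apply]; omega
      | right => simp only [Move.apply]; omega

/-- The final right-hand view is determined by the initial right-hand view and the list of
entering states. -/
lemma runR_spec {b : ℕ} (hb1 : 1 ≤ b) (t : ℕ) : ∀ (c c' : Cfg M), run M t c = some c' →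
    step M c' = none → ∀ f : ℕ, t ≤ f → runR M f (enters M b t c) (view M b c) = view M b c' := by
  induction t with
  | zero =>
    intro c c' hrun hhalt f _
    simp only [run, Option.some.injEq] at hrun
    subst hrun
    cases f with
    | zero => rfl
    | succ f =>
      by_cases hb : b ≤ c.head 0
      · have h1 := stepR_none M hb hhalt
        have hv : view M b c = (some (c.q, c.head 0 - b), (view M b c).2) := by
          simp [view, hb]
        rw [hv]
        simp only [enters, runR]
        rw [h1]
      · have hv : view M b c = (none, (view M b c).2) := by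
          simp [view, hb]
        rw [hv]
        simp only [enters, runR]
  | succ t ih =>
    intro c c' hrun hhalt f hf
    obtain ⟨f, rfl⟩ : ∃ g, f = g + 1 := ⟨f - 1, by omega⟩
    simp only [run] at hrun
    cases hs : step M c with
    | none => rw [hs] at hrun; cases hrun
    | some c₁ =>
      rw [hs] at hrun
      simp only [Option.bind_some] at hrun
      by_cases hb : b ≤ c.head 0
      · have h1 := stepR_some M hb1 hb hs
        have hv : view M b c = (some (c.q, c.head 0 - b), (view M b c).2) := by
          simp [view, hb]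
        have hnot : ¬ (c.head 0 < b ∧ b ≤ c₁.head 0) := by omega
        rw [hv]
        simp only [enters, hs, hnot, if_false, List.nil_append, runR]
        rw [h1]
        exact ih c₁ c' hrun hhalt f (by omega)
      · have hlt : c.head 0 < b := by omega
        obtain ⟨h2, h3⟩ := left_step M hlt hs
        have hv : view M b c = (none, (view M b c).2) := by
          simp [view, hb]
        by_cases hb' : b ≤ c₁.head 0
        · have hyes : (c.head 0 < b ∧ b ≤ c₁.head 0) := ⟨hlt, hb'⟩
          have hv1 : view M b c₁ = (some (c₁.q, 0), (view M b c).2) := by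
            rw [← h2]
            simp [view, h3 hb']
          rw [hv]
          simp only [enters, hs, hyes, and_self, if_true, List.singleton_append, runR]
          rw [← hv1]
          exact ih c₁ c' hrun hhalt f (by omega)
        · have hnot : ¬ (c.head 0 < b ∧ b ≤ c₁.head 0) := by omega
          have hv1 : view M b c₁ = view M b c := by
            rw [hv, ← h2]
            simp [view, hb']
          simp only [enters, hs, hnot, if_false, List.nil_append]
          rw [← hv1]
          exact ih c₁ c' hrun hhalt (f + 1) (by omega)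

/-- Each step crosses at most one boundary, so the crossing lists are short on the whole. -/
lemma sum_enters_le (S : Finset ℕ) (t : ℕ) : ∀ c : Cfg M,
    ∑ b ∈ S, (enters M b t c).length ≤ t := by
  induction t with
  | zero => intro c; simp [enters]
  | succ t ih =>
    intro c
    cases hs : step M c with
    | none => simp [enters, hs]
    | some c₁ =>
      simp only [enters, hs, List.length_append]
      rw [Finset.sum_add_distrib]
      have h1 : ∑ b ∈ S, (if c.head 0 < b ∧ b ≤ c₁.head 0 then [c₁.q] else []).length ≤ 1 := by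
        have hle : c₁.head 0 ≤ c.head 0 + 1 := by
          unfold step at hs
          cases hδ : M.δ c.q (fun i => c.tape i (c.head i)) with
          | none => rw [hδ] at hs; cases hs
          | some r =>
            rw [hδ] at hs
            simp only [Option.map_some, Option.some.injEq] at hs
            subst hs
            simp only
            cases hm : (r.2 0).2 with
            | left => simp only [Move.apply]; omega
            | stay => simp only [Move.apply]; omega
            | right => simp only [Move.apply]; omega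
        calc ∑ b ∈ S, (if c.head 0 < b ∧ b ≤ c₁.head 0 then [c₁.q] else []).length
            ≤ ∑ b ∈ S, (if b = c.head 0 + 1 then 1 else 0) := by
              apply Finset.sum_le_sum
              intro b _
              by_cases h : c.head 0 < b ∧ b ≤ c₁.head 0
              · have : b = c.head 0 + 1 := by omega
                rw [if_pos h, if_pos this]
                simp
              · rw [if_neg h]
                simp
          _ ≤ 1 := by
              rw [Finset.sum_ite_eq']
              split_ifs <;> simp
      have h2 := ih c₁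
      omega

end Crossing

/-! ### Counting -/

/-- The string `0...01` of value one. -/
def yone (n : ℕ) : Fin n → Bool := fun i => decide ((i : ℕ) = n - 1)

lemma val_yone {n : ℕ} (hn : 1 ≤ n) : val (yone n) = 1 := by
  unfold val yone
  rw [Finset.sum_eq_single (⟨n - 1, by omega⟩ : Fin n)]
  · simp
  · intro i _ hi
    have : (i : ℕ) ≠ n - 1 := fun h => hi (Fin.ext h)
    simp [this]
  · intro h
    exact absurd (Finset.mem_univ _) h

lemma bitSym_inj : Function.Injective bitSym := by
  intro a b h
  cases a <;> cases b <;> simp_all [bitSym]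

lemma list_count {Q : Type} [Fintype Q] {α : Type} [DecidableEq α] (A : Finset α) (E : α → List Q)
    (ℓ d : ℕ) (g : α → (Fin d → Bool)) (hA : ∀ a ∈ A, (E a).length ≤ ℓ)
    (hinj : ∀ a ∈ A, ∀ a' ∈ A, E a = E a' → g a = g a' → a = a') :
    A.card ≤ (Fintype.card Q + 1) ^ ℓ * 2 ^ d := by
  classical
  have h1 : A.card ≤ (Finset.univ : Finset ((Fin ℓ → Option Q) × (Fin d → Bool))).card := by
    apply Finset.card_le_card_of_injOn (fun a => ((fun i : Fin ℓ => (E a)[(i : ℕ)]?), g a))
    · intro a _
      exact Finset.mem_coe.mpr (Finset.mem_univ _)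
    · intro a ha a' ha' h
      simp only [Prod.mk.injEq] at h
      apply hinj a ha a' ha' _ h.2
      apply List.ext_getElem?
      intro i
      by_cases hi : i < ℓ
      · exact congrFun h.1 ⟨i, hi⟩
      · have h1 := hA a ha
        have h2 := hA a' ha'
        rw [List.getElem?_eq_none (by omega), List.getElem?_eq_none (by omega)]
  simpa using h1

section Main

variable (M : Machine 1)

lemma view_init {n : ℕ} (x x' y : Fin n → Bool) {b : ℕ} (hb : n + 1 ≤ b) :
    view M b (init M x y) = view M b (init M x' y) := by
  unfold view init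
  simp only
  congr 1
  funext j
  have h1 : ¬ (b + j < n) := by omega
  simp [inputCell, h1]

/-- Equal crossing lists at the boundary `b` force equal bits of `x` at the positions which the
product `x * 1` places to the right of `b`. -/
lemma bits_eq_of_enters_eq {n : ℕ} (hn : 1 ≤ n) {b : ℕ} (hb : n + 1 ≤ b) (x x' : Fin n → Bool)
    {t t' : ℕ} {c c' : Cfg M} (h : HaltsWith M x (yone n) t c) (h' : HaltsWith M x' (yone n) t' c')
    (ho : ∀ i : ℕ, i < 2 * n →
      c.tape M.out i = M.sym (bitSym (binDigit (2 * n) (val x * val (yone n)) i)))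
    (ho' : ∀ i : ℕ, i < 2 * n →
      c'.tape M.out i = M.sym (bitSym (binDigit (2 * n) (val x' * val (yone n)) i)))
    (hE : enters M b t (init M x (yone n)) = enters M b t' (init M x' (yone n)))
    (j : Fin n) (hj : b ≤ n + (j : ℕ)) : x j = x' j := by
  have hb1 : 1 ≤ b := by omega
  have e1 := runR_spec M hb1 t _ _ h.1 h.2 (max t t') (le_max_left _ _)
  have e2 := runR_spec M hb1 t' _ _ h'.1 h'.2 (max t t') (le_max_right _ _)
  rw [hE, view_init M x x' (yone n) hb, e2] at e1
  have e3 : c'.tape 0 (n + j) = c.tape 0 (n + j) := by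
    have := congrFun (congrArg Prod.snd e1) (n + j - b)
    simp only [view] at this
    rwa [Nat.add_sub_cancel' hj] at this
  have hout : M.out = 0 := Subsingleton.elim _ _
  rw [hout] at ho ho'
  rw [ho (n + j) (by omega), ho' (n + j) (by omega), val_yone hn, mul_one, mul_one] at e3
  have e4 := bitSym_inj (M.sym_inj e3)
  unfold binDigit at e4
  have e5 : 2 * n - 1 - (n + (j : ℕ)) = n - 1 - (j : ℕ) := by omega
  rw [e5, testBit_val, testBit_val] at e4
  exact e4.symm

lemma sum_boundaries (n : ℕ) : 2 * ∑ b ∈ Finset.Ico (n + 1) (2 * n), (2 * n - b) = n * (n - 1) := by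
  rw [Finset.sum_Ico_eq_sum_range]
  have h1 : 2 * n - (n + 1) = n - 1 := by omega
  rw [h1]
  have h2 : ∑ i ∈ Finset.range (n - 1), (2 * n - (n + 1 + i)) =
      ∑ i ∈ Finset.range (n - 1), ((n - 1 - 1 - i) + 1) := by
    apply Finset.sum_congr rfl
    intro i hi
    rw [Finset.mem_range] at hi
    omega
  rw [h2, Finset.sum_range_reflect (fun j => j + 1) (n - 1)]
  have h3 : ∑ j ∈ Finset.range (n - 1), (j + 1) = ∑ j ∈ Finset.range n, j := by
    cases n with
    | zero => simp
    | succ m =>
      simp only [Nat.add_sub_cancel]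
      rw [Finset.sum_range_succ' (fun j => j) m]
      simp
  rw [h3, mul_comm, Finset.sum_range_id_mul_two]

/-- The quantitative bound in natural numbers. -/
lemma key [Fintype M.Q] (hM : Multiplies M) (L : ℕ) (hL : Fintype.card M.Q + 1 ≤ 2 ^ L)
    (hL1 : 1 ≤ L) (n : ℕ) (hn : 1 ≤ n) : n * (n - 1) ≤ 4 * L * worstTime M n := by
  classical
  choose t c hhalt hout using fun x => hM n hn x (yone n)
  -- crossing lists
  set E : ℕ → (Fin n → Bool) → List M.Q := fun b x => enters M b (t x) (init M x (yone n)) with hE
  have hcard : (Finset.univ : Finset (Fin n → Bool)).card = 2 ^ n := by simp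
  -- per-boundary bound
  have hbd : ∀ b ∈ Finset.Ico (n + 1) (2 * n),
      (2 * n - b) * 2 ^ (n - 1) ≤ L * ∑ x : Fin n → Bool, (E b x).length := by
    intro b hb
    rw [Finset.mem_Ico] at hb
    obtain ⟨hb1, hb2⟩ := hb
    set ℓ := (2 * n - b - 1) / L with hℓ
    set A : Finset (Fin n → Bool) := Finset.univ.filter (fun x => (E b x).length ≤ ℓ) with hA
    have hdn : b - n ≤ n := by omega
    have hAcard : A.card ≤ 2 ^ (n - 1) := by
      have h1 := list_count A (E b) ℓ (b - n) (fun x => fun i => x (Fin.castLE hdn i))
        (by intro a ha; exact (Finset.mem_filter.mp ha).2)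
        (by
          intro a _ a' _ hEE hg
          funext j
          by_cases hj : b ≤ n + (j : ℕ)
          · exact bits_eq_of_enters_eq M hn hb1 a a' (hhalt a) (hhalt a') (hout a) (hout a') hEE j hj
          · have := congrFun hg ⟨j, by omega⟩
            simpa using this)
      calc A.card ≤ (Fintype.card M.Q + 1) ^ ℓ * 2 ^ (b - n) := h1
        _ ≤ (2 ^ L) ^ ℓ * 2 ^ (b - n) := by gcongr
        _ = 2 ^ (L * ℓ + (b - n)) := by rw [← pow_mul, ← pow_add]
        _ ≤ 2 ^ (n - 1) := by
            apply Nat.pow_le_pow_right (by norm_num)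
            have : L * ℓ ≤ 2 * n - b - 1 := Nat.mul_div_le _ _
            omega
    have hcompl : 2 ^ (n - 1) ≤ (Finset.univ \ A).card := by
      rw [Finset.card_sdiff_of_subset (Finset.subset_univ _), hcard]
      have : 2 ^ n = 2 * 2 ^ (n - 1) := by
        obtain ⟨m, rfl⟩ : ∃ m, n = m + 1 := ⟨n - 1, by omega⟩
        simp [pow_succ, mul_comm]
      omega
    have hsum : (ℓ + 1) * 2 ^ (n - 1) ≤ ∑ x : Fin n → Bool, (E b x).length := by
      calc (ℓ + 1) * 2 ^ (n - 1) ≤ (ℓ + 1) * (Finset.univ \ A).card := by gcongr
        _ = ∑ _x ∈ Finset.univ \ A, (ℓ + 1) := by simp [mul_comm]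
        _ ≤ ∑ x ∈ Finset.univ \ A, (E b x).length := by
            apply Finset.sum_le_sum
            intro x hx
            rw [Finset.mem_sdiff] at hx
            have : ¬ (E b x).length ≤ ℓ := fun h => hx.2 (Finset.mem_filter.mpr ⟨hx.1, h⟩)
            omega
        _ ≤ ∑ x : Fin n → Bool, (E b x).length :=
            Finset.sum_le_sum_of_subset (Finset.sdiff_subset)
    have hLl : 2 * n - b ≤ L * (ℓ + 1) := by
      have : 2 * n - b - 1 < L * (ℓ + 1) := Nat.lt_mul_div_succ _ (by omega)
      omega
    calc (2 * n - b) * 2 ^ (n - 1) ≤ (L * (ℓ + 1)) * 2 ^ (n - 1) := by gcongr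
      _ = L * ((ℓ + 1) * 2 ^ (n - 1)) := by ring
      _ ≤ L * ∑ x : Fin n → Bool, (E b x).length := by gcongr
  -- sum over the boundaries
  have htot : ∑ x : Fin n → Bool, ∑ b ∈ Finset.Ico (n + 1) (2 * n), (E b x).length ≤
      2 ^ n * worstTime M n := by
    calc ∑ x : Fin n → Bool, ∑ b ∈ Finset.Ico (n + 1) (2 * n), (E b x).length
        ≤ ∑ _x : Fin n → Bool, worstTime M n := by
          apply Finset.sum_le_sum
          intro x _
          calc ∑ b ∈ Finset.Ico (n + 1) (2 * n), (E b x).length ≤ t x := sum_enters_le M _ _ _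
            _ = haltTime M x (yone n) := (haltTime_eq M (hhalt x)).symm
            _ ≤ worstTime M n := haltTime_le_worstTime M _ _
      _ = 2 ^ n * worstTime M n := by simp
  have hfinal : (∑ b ∈ Finset.Ico (n + 1) (2 * n), (2 * n - b)) * 2 ^ (n - 1) ≤
      L * (2 ^ n * worstTime M n) := by
    calc (∑ b ∈ Finset.Ico (n + 1) (2 * n), (2 * n - b)) * 2 ^ (n - 1)
        = ∑ b ∈ Finset.Ico (n + 1) (2 * n), (2 * n - b) * 2 ^ (n - 1) := Finset.sum_mul _ _ _
      _ ≤ ∑ b ∈ Finset.Ico (n + 1) (2 * n), L * ∑ x : Fin n → Bool, (E b x).length :=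
          Finset.sum_le_sum hbd
      _ = L * ∑ x : Fin n → Bool, ∑ b ∈ Finset.Ico (n + 1) (2 * n), (E b x).length := by
          rw [← Finset.mul_sum, Finset.sum_comm]
      _ ≤ L * (2 ^ n * worstTime M n) := by gcongr
  have h2n : 2 ^ n = 2 * 2 ^ (n - 1) := by
    obtain ⟨m, rfl⟩ : ∃ m, n = m + 1 := ⟨n - 1, by omega⟩
    simp [pow_succ, mul_comm]
  have hpos : 0 < 2 ^ (n - 1) := by positivity
  have h3 : (n * (n - 1)) * 2 ^ (n - 1) ≤ (4 * L * worstTime M n) * 2 ^ (n - 1) := by
    rw [← sum_boundaries n]
    calc (2 * ∑ b ∈ Finset.Ico (n + 1) (2 * n), (2 * n - b)) * 2 ^ (n - 1)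
        = 2 * ((∑ b ∈ Finset.Ico (n + 1) (2 * n), (2 * n - b)) * 2 ^ (n - 1)) := by ring
      _ ≤ 2 * (L * (2 ^ n * worstTime M n)) := by gcongr
      _ = (4 * L * worstTime M n) * 2 ^ (n - 1) := by rw [h2n]; ring
  exact Nat.le_of_mul_le_mul_right h3 hpos

end Main

/-- **Main result: the conjecture holds for one-tape machines, with a quadratic bound.**
Let `M` be a deterministic Turing machine with a single tape (which is then both the input tape and
the output tape) that multiplies.
(1) If `|Q| + 1 ≤ 2 ^ L` then `n (n - 1) ≤ 4 L T_M(n)` for all `n ≥ 1`.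
(2) There is `c > 0` with `T_M(n) ≥ c n ^ 2` and `T_M(n) ≥ c n log n` for all `n ≥ 2`. -/
theorem result (M : Machine 1) (hM : Multiplies M) :
    (∀ L : ℕ, Nat.card M.Q + 1 ≤ 2 ^ L → ∀ n : ℕ, 1 ≤ n → n * (n - 1) ≤ 4 * L * worstTime M n) ∧
    ∃ c : ℝ, 0 < c ∧ ∀ n : ℕ, 2 ≤ n →
      c * (n : ℝ) ^ 2 ≤ (worstTime M n : ℝ) ∧ c * ((n : ℝ) * Real.log n) ≤ (worstTime M n : ℝ) := by
  have := M.finQ
  let _ : Fintype M.Q := Fintype.ofFinite M.Q
  have h1 : ∀ L : ℕ, Nat.card M.Q + 1 ≤ 2 ^ L → ∀ n : ℕ, 1 ≤ n →
      n * (n - 1) ≤ 4 * L * worstTime M n := by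
    intro L hL n hn
    rw [Nat.card_eq_fintype_card] at hL
    have hL1 : 1 ≤ L := by
      by_contra h
      have : L = 0 := by omega
      subst this
      have hpos : 0 < Fintype.card M.Q := Fintype.card_pos_iff.mpr ⟨M.start⟩
      simp at hL
      omega
    exact key M hM L hL hL1 n hn
  refine ⟨h1, ?_⟩
  set L : ℕ := Nat.card M.Q + 1 with hLdef
  have hL : Nat.card M.Q + 1 ≤ 2 ^ L := Nat.lt_two_pow_self.le
  have hLpos : (0 : ℝ) < (L : ℝ) := by
    have : 0 < L := by omega
    exact_mod_cast this
  refine ⟨1 / (8 * L), by positivity, ?_⟩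
  intro n hn
  have h2 := h1 L hL n (by omega)
  have hn2 : (2 : ℝ) ≤ (n : ℝ) := by exact_mod_cast hn
  have h3 : (n : ℝ) * ((n : ℝ) - 1) ≤ 4 * L * (worstTime M n : ℝ) := by
    have h4 : ((n * (n - 1) : ℕ) : ℝ) ≤ ((4 * L * worstTime M n : ℕ) : ℝ) := by exact_mod_cast h2
    rw [Nat.cast_mul, Nat.cast_sub (by omega)] at h4
    push_cast at h4
    exact h4
  have h5 : 1 / (8 * (L : ℝ)) * (n : ℝ) ^ 2 ≤ (worstTime M n : ℝ) := by
    rw [div_mul_eq_mul_div, one_mul, div_le_iff₀ (by positivity)]
    nlinarith
  refine ⟨h5, le_trans ?_ h5⟩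
  have hlog : Real.log n ≤ (n : ℝ) := (Real.log_le_sub_one_of_pos (by linarith)).trans (by linarith)
  have hc : (0 : ℝ) ≤ 1 / (8 * (L : ℝ)) := by positivity
  apply mul_le_mul_of_nonneg_left _ hc
  nlinarith

end Vale.Agent.Results.P338.OneTape
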