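import Mathlib
import Vale.Agent.Lib.P338.TS.Final

/-!
# P338: a time-space inequality for multiplication on multitape machines with one-way output

Tape `0` holds the input (and is an unrestricted read-write tape), tape `1` is a one-way write-only
output tape, and there are `k` further work tapes, of which the machine uses the first `S` cells on
inputs of length `n`.  Then `T (S + log T)` is of order at least `n ^ 2`; in particular the
`n log n` lower bound holds for all machines with `S = O(n / log n)`.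
-/

namespace Vale.Agent.Results.P338.TimeSpace

open Vale.Agent.Lib.P338 Vale.Agent.Lib.P338.TS

theorem result (k : ℕ) (M : Machine (k + 2)) (hOW : OneWayOutK M) (hM : Multiplies M) :
    (∀ n S Λ : ℕ, 1 ≤ n → 1 ≤ S → SpaceBound M n S →
      Nat.card M.Q * (S ^ k * (Nat.card M.Γ ^ S) ^ k) * (worstTime M n + 1) + 1 ≤ 2 ^ Λ →
      (n - 1) * (n + 1) ≤ 14 * Λ * worstTime M n) ∧
    (∃ c : ℝ, 0 < c ∧ ∀ n S : ℕ, 2 ≤ n → 1 ≤ S → SpaceBound M n S →
      c * (n : ℝ) ^ 2 ≤ (worstTime M n : ℝ) * ((S : ℝ) + Real.log (worstTime M n))) ∧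
    (∀ K : ℝ, ∃ c : ℝ, 0 < c ∧ ∀ n S : ℕ, 2 ≤ n → 1 ≤ S → SpaceBound M n S →
      (S : ℝ) ≤ K * ((n : ℝ) / Real.log n) →
      c * ((n : ℝ) * Real.log n) ≤ (worstTime M n : ℝ)) :=
  final k M hOW hM

end Vale.Agent.Results.P338.TimeSpace
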