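import Mathlib
import Vale.Agent.Results.P338.OneTape
import Vale.Agent.Results.P338.TimeSpace
import Vale.Agent.Results.P338.A0_WriteOnly

/-!
# P338: lower bounds in restricted models, as one theorem

(1) one tape; (2) a read-write input tape, a one-way output tape and `k` work tapes of which `S`
cells are used; (3) the same with a write-only two-way output tape.
-/

namespace Vale.Agent.Results.P338.A00_Combined

open Vale.Agent.Lib.P338 Vale.Agent.Lib.P338.TS Vale.Agent.Lib.P338.WO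

theorem result :
    (∀ M : Machine 1, Multiplies M →
      (∀ L : ℕ, Nat.card M.Q + 1 ≤ 2 ^ L → ∀ n : ℕ, 1 ≤ n →
        n * (n - 1) ≤ 4 * L * worstTime M n) ∧
      ∃ c : ℝ, 0 < c ∧ ∀ n : ℕ, 2 ≤ n →
        c * (n : ℝ) ^ 2 ≤ (worstTime M n : ℝ) ∧
        c * ((n : ℝ) * Real.log n) ≤ (worstTime M n : ℝ)) ∧
    (∀ (k : ℕ) (M : Machine (k + 2)), OneWayOutK M → Multiplies M →
      (∀ n S Λ : ℕ, 1 ≤ n → 1 ≤ S → SpaceBound M n S →
        Nat.card M.Q * (S ^ k * (Nat.card M.Γ ^ S) ^ k) * (worstTime M n + 1) + 1 ≤ 2 ^ Λ →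
        (n - 1) * (n + 1) ≤ 14 * Λ * worstTime M n) ∧
      (∃ c : ℝ, 0 < c ∧ ∀ n S : ℕ, 2 ≤ n → 1 ≤ S → SpaceBound M n S →
        c * (n : ℝ) ^ 2 ≤ (worstTime M n : ℝ) * ((S : ℝ) + Real.log (worstTime M n))) ∧
      (∀ K : ℝ, ∃ c : ℝ, 0 < c ∧ ∀ n S : ℕ, 2 ≤ n → 1 ≤ S → SpaceBound M n S →
        (S : ℝ) ≤ K * ((n : ℝ) / Real.log n) →
        c * ((n : ℝ) * Real.log n) ≤ (worstTime M n : ℝ))) ∧
    (∀ (k : ℕ) (M : Machine (k + 2)), WriteOnlyK M → Multiplies M →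
      (∀ n S Λ : ℕ, 1 ≤ n → 1 ≤ S → SpaceBound M n S →
        Nat.card M.Q * (S ^ k * (Nat.card M.Γ ^ S) ^ k) * (worstTime M n + 1) + 1 ≤ 2 ^ Λ →
        (n - 1) * (n + 1) ≤ 34 * Λ * worstTime M n) ∧
      (∃ c : ℝ, 0 < c ∧ ∀ n S : ℕ, 2 ≤ n → 1 ≤ S → SpaceBound M n S →
        c * (n : ℝ) ^ 2 ≤ (worstTime M n : ℝ) * ((S : ℝ) + Real.log (worstTime M n))) ∧
      (∀ K : ℝ, ∃ c : ℝ, 0 < c ∧ ∀ n S : ℕ, 2 ≤ n → 1 ≤ S → SpaceBound M n S →
        (S : ℝ) ≤ K * ((n : ℝ) / Real.log n) →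
        c * ((n : ℝ) * Real.log n) ≤ (worstTime M n : ℝ))) :=
  ⟨fun M hM => Vale.Agent.Results.P338.OneTape.result M hM,
   fun k M hOW hM => Vale.Agent.Results.P338.TimeSpace.result k M hOW hM,
   fun k M hWO hM => Vale.Agent.Results.P338.A0_WriteOnly.result k M hWO hM⟩

end Vale.Agent.Results.P338.A00_Combined
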