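import Mathlib
import Vale.Agent.Lib.P338.OW.Final

/-!
# P338: multiplication on machines with one read-write tape and a one-way output tape

A Turing machine whose only storage is the tape that initially holds the input, and which writes
the product on a separate one-way write-only output tape, needs time of order `n ^ 2 / log n`.
-/

namespace Vale.Agent.Results.P338.OneWayOutput

open Vale.Agent.Lib.P338 Vale.Agent.Lib.P338.OW

theorem result (M : Machine 2) (hOW : OneWayOut M) (hM : Multiplies M) :
    (∀ Λ n : ℕ, 1 ≤ n → Nat.card M.Q * (worstTime M n + 1) + 1 ≤ 2 ^ Λ →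
      (n - 1) * (n + 1) ≤ 14 * Λ * worstTime M n) ∧
    ∃ c : ℝ, 0 < c ∧ ∀ n : ℕ, 2 ≤ n →
      c * ((n : ℝ) ^ 2 / Real.log n) ≤ (worstTime M n : ℝ) ∧
      c * ((n : ℝ) * Real.log n) ≤ (worstTime M n : ℝ) :=
  final M hOW hM

end Vale.Agent.Results.P338.OneWayOutput
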